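import Vale.Agent.P058.Kite
import Vale.Agent.P058.Eight

namespace Vale.Agent.Results.P058.Classification

open Vale.Agent.P058

theorem result :
    (∀ (d : ℕ) (A : Finset (EuclideanSpace ℝ (Fin d))) (F : Subfield ℝ), A.Nonempty →
      (∀ x ∈ A, ∀ k : Fin d, x k ∈ F) → (IsRamsey A ↔ TensorCriterion F A)) ∧
    (∀ (d : ℕ) (A : Finset (EuclideanSpace ℝ (Fin d))), A.Nonempty →
      IsSubtransitive A → IsRamsey A) ∧
    (∃ A : Finset (EuclideanSpace ℝ (Fin 2)), A.card = 4 ∧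
      EuclideanGeometry.Cospherical (A : Set (EuclideanSpace ℝ (Fin 2))) ∧
      IsRamsey A ∧ ¬ IsSubtransitive A) ∧
    (∀ (d : ℕ) (A : Finset (EuclideanSpace ℝ (Fin d))),
      EuclideanGeometry.Cospherical (A : Set (EuclideanSpace ℝ (Fin d))) → A.card ≤ 5 →
      IsRamsey A) ∧
    (∃ A : Finset (EuclideanSpace ℝ (Fin 2)), A.card ≤ 8 ∧
      EuclideanGeometry.Cospherical (A : Set (EuclideanSpace ℝ (Fin 2))) ∧ ¬ IsRamsey A) :=
  ⟨fun _ _ _ hA hF => ⟨fun h => h.tensorCriterion hA hF, fun h => h.isRamsey hF⟩,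
    fun _ _ hA h => h.isRamsey hA, exists_kite, fun _ A => isRamsey_of_card_le_five A,
    exists_eight⟩

end Vale.Agent.Results.P058.Classification
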