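import Vale.Agent.P058.Suff

namespace Vale.Agent.Results.P058.SubtransRamsey

open Vale.Agent.P058

theorem result : ∀ (d : ℕ) (A : Finset (EuclideanSpace ℝ (Fin d))),
    A.Nonempty → IsSubtransitive A → IsRamsey A :=
  fun _ _ hA h => h.isRamsey hA

end Vale.Agent.Results.P058.SubtransRamsey
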